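import Vale.Agent.P011.D4X.H63.Sing
import Vale.Agent.P011.D4X.H69.Z5K
import Vale.Agent.P011.D4X.H553.KC

/-!
Block D4X: the singular vector of an involution close to the standard one, for a change of the
quadratic field; the involution is carried to an involution of the standard plane.
-/

set_option linter.unusedSectionVars false

open Filter Topology NumberField

namespace Vale.Agent.P011.D4X

open Vale.Agent.P011.MPQ Vale.Agent.P011.D4 Vale.Agent.P011.D4.Oct Vale.Agent.P011.E6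

section main

variable {k L E E1 O : Type} [Field k] [Field L] [Field E] [Field E1] [Field O] [Algebra k L]
  [Algebra k E] [Algebra L E] [IsScalarTower k L E] [Algebra k E1] [Algebra L E1]
  [IsScalarTower k L E1] [Algebra k O] [Algebra E O] [Algebra E1 O] [IsScalarTower k E O]
  [IsScalarTower k E1 O] [NeZero (2 : k)] [NeZero (2 : E)] [NeZero (2 : E1)] [NeZero (2 : O)]
  {ρ σ : E ≃ₐ[k] E} {ρL : L ≃ₐ[k] L} {α : E} {a b c : kˣ} {q : Lˣ}
  {ρ1 σ1 : E1 ≃ₐ[k] E1} {α1 : E1} {a1 b1 c1 : kˣ} {q1 : Lˣ}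
  {ρ' σ' : O ≃ₐ[k] O} {b' c' : kˣ} {j l : Oct a b c}

omit [NeZero (2 : O)] in
/-- **Z5**, with one element. -/
theorem z5_y (H1 : Hy ρ1 σ1 ρL α1 a1 b1 c1 q1)
    {u : OctL O a1 b1 c1 ≃ₗ[O] OctL O a b c}
    (φ : AT ρ σ α a b c q ≃* AT ρ1 σ1 α1 a1 b1 c1 q1)
    (hφ : ∀ (z : AT ρ σ α a b c q) (zO : OctL O a b c ≃ₗ[O] OctL O a b c),
      (∀ x, zO (oO O x) = oO O (z.1 x)) → ∀ x, u (oO O ((φ z).1 x)) = zO (u (oO O x)))
    (hκ : ∀ (z : AT ρ σ α a b c q) (κ : Lˣ), IsKap ρ z.1 κ → IsKap ρ1 (φ z).1 κ)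
    [NeZero (2 : O)] (h : Trip a b' c' gi j l) {v : OctL E1 a1 b1 c1}
    (hvt : tQ O h (u (oO O v)) = -u (oO O v)) {y : AT ρ1 σ1 α1 a1 b1 c1 q1} {t : E1}
    (ht : t ≠ 0) (hyt : y.1 (tri ρ1 v (Jm ρ1 σ1 α1 q1 v)) = t • ep α1) :
    ∃ (b2 c2 : kˣ) (j1 l1 : Oct a1 b1 c1)
      (h1 : Trip a1 b2 c2 gi j1 l1), y * φ (tAT ρ σ α q h) * y⁻¹ = tAT ρ1 σ1 α1 q1 h1 := by
  set T := φ (tAT ρ σ α q h) with hT
  have hTv : T.1 v = -v := by
    apply oO_inj (O := O)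
    apply u.injective
    rw [hφ (tAT ρ σ α q h) (tQ O h) (fun x => tQ_oO h x), hvt, oO_neg, map_neg]
  have hTk : IsKap ρ1 T.1 (1 : Lˣ) := hκ _ _ (tAT_kap h)
  have hneg : Jm ρ1 σ1 α1 q1 (-v) = -Jm ρ1 σ1 α1 q1 v := by
    ext1
    · change mq a1 b1 α1 _ * qmap σ1 (-v.fst) * _ = -(mq a1 b1 α1 _ * qmap σ1 v.fst * _)
      rw [qmap_neg, mul_neg, neg_mul]
    · change qmap σ1 (-v.snd) * _ = -(qmap σ1 v.snd * _)
      rw [qmap_neg, neg_mul]
  have hTs : T.1 (tri ρ1 v (Jm ρ1 σ1 α1 q1 v)) = tri ρ1 v (Jm ρ1 σ1 α1 q1 v) := by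
    rw [hTk, Units.val_one, map_one, one_smul, T.2.2, hTv, hneg, tri_neg_left, tri_neg_right,
      neg_neg]
  set S := y * T * y⁻¹ with hS
  have hSS : S * S = 1 := by
    have e1 : T * T = 1 := by rw [hT, ← map_mul, tAT_sq, map_one]
    calc S * S = y * (T * T) * y⁻¹ := by rw [hS]; group
      _ = 1 := by rw [e1]; group
  have hS1 : S ≠ 1 := by
    intro h1
    apply tAT_ne (ρ := ρ) (σ := σ) (α := α) (q := q) h
    apply φ.injective
    rw [map_one, ← hT]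
    have e2 : T = y⁻¹ * S * y := by rw [hS]; group
    rw [e2, h1]
    group
  have hSe : S.1 (ep α1) = ep α1 := by
    have e3 : y.1⁻¹ (t • ep α1) = tri ρ1 v (Jm ρ1 σ1 α1 q1 v) := by
      rw [← hyt]
      exact y.1.symm_apply_apply _
    have e4 : S.1 (t • ep α1) = t • ep α1 := by
      change y.1 (T.1 (y.1⁻¹ (t • ep α1))) = t • ep α1
      rw [e3, hTs, hyt]
    rw [map_smul] at e4
    exact smul_right_injective _ ht e4
  have hSk : IsKap ρ1 S.1 (1 : Lˣ) := by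
    obtain ⟨κ, hκy⟩ := y.2.1
    have e5 := (hκy.mul hTk).mul hκy.inv
    have e6 : κ * 1 * κ⁻¹ = 1 := by group
    rw [e6] at e5
    exact e5
  have hSG : S.1 ∈ GT ρ1 σ1 α1 a1 b1 c1 q1 := by
    refine ⟨fun x z => ?_, S.2.2⟩
    rw [hSk, Units.val_one, map_one, one_smul]
  obtain ⟨b2, c2, j1, l1, h1, h2⟩ := exists_tQ H1 hSG (fun h0 => hS1 (Subtype.ext h0))
    (congrArg Subtype.val hSS) hSe
  exact ⟨b2, c2, j1, l1, h1, Subtype.ext h2⟩

end main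

section ext

/-- Complex embeddings extend to algebraic extensions. -/
theorem exists_ext {F M : Type} [Field F] [Field M] [NumberField M] [Algebra F M]
    [CharZero F] (w : F →+* ℂ) : ∃ W : M →+* ℂ, W.comp (algebraMap F M) = w := by
  let _ := w.toAlgebra
  have _halg : Algebra.IsAlgebraic F M := Algebra.IsAlgebraic.tower_top (K := ℚ) F
  let W : M →ₐ[F] ℂ := IsAlgClosed.lift
  exact ⟨(W : M →+* ℂ), RingHom.ext fun t => W.commutes t⟩

end ext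

section kcx

variable {k L E E1 O : Type} [Field k] [Field L] [Field E] [Field E1] [Field O] [Algebra k L]
  [Algebra k E] [Algebra L E] [Algebra k E1] [Algebra L E1] [Algebra k O] [Algebra L O]
  [Algebra E O] [Algebra E1 O] [IsScalarTower k L E] [IsScalarTower k L E1]
  [IsScalarTower k L O]
  [IsScalarTower k E O] [IsScalarTower k E1 O] [IsScalarTower L E O] [IsScalarTower L E1 O]
  {a b c a1 b1 c1 : kˣ} {q : Lˣ}
  {ρ σ : E ≃ₐ[k] E} {ρL : L ≃ₐ[k] L} {α : E} {D : k} {w0 : Qt a b}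
  {w : Qt (up L a) (q * up L b)} {ρ1 σ1 : E1 ≃ₐ[k] E1} {α1 : E1} {ρ' σ' τ' : O ≃ₐ[k] O}
  {q1 : Lˣ} {u : OctL O a1 b1 c1 ≃ₗ[O] OctL O a b c}
  {φ : AT ρ σ α a b c q ≃* AT ρ1 σ1 α1 a1 b1 c1 q1}

/-- The coordinates of a pure quaternion whose square is not a square in `E`. -/
theorem Sn.norm_ne (H : Hy ρ σ ρL α a b c q) (hns : ∀ x : E, x * x ≠ algebraMap k E D)
    (hw0 : w0.re = 0) (hw : w0 * w0 = D • (1 : Qt a b)) :
    w0.imJ ^ 2 - (a : k) * w0.imK ^ 2 ≠ 0 := by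
  intro h0
  have h1 : (⟨w0.imJ, w0.imK, 0, 0⟩ : Qt a b) = 0 := H.hdiv.aniso _ (by
    simp only [nrd]
    linear_combination h0)
  have h2 : w0.imJ = 0 := congrArg QuaternionAlgebra.re h1
  have h3 : w0.imK = 0 := congrArg QuaternionAlgebra.imI h1
  have h4 := congrArg QuaternionAlgebra.re hw
  simp only [QuaternionAlgebra.re_mul, hw0, h2, h3, QuaternionAlgebra.re_smul,
    QuaternionAlgebra.re_one, smul_eq_mul, mul_one, mul_zero, zero_add, add_zero, sub_zero] at h4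
  apply hns (α * algebraMap k E w0.imI)
  rw [← h4, map_mul, map_mul, ← H.α2]
  ring

/-- The data of the change of the field, and one vector. -/
theorem KCX.z5_y [NeZero (2 : k)] [NeZero (2 : E)] [NeZero (2 : E1)] [NeZero (2 : O)]
    (X : KCX ρ σ ρL α D w0 w ρ1 σ1 α1 ρ' σ' τ' q1 u φ) {b' c' : kˣ}
    {j l : Oct a b c} (h : Trip a b' c' gi j l) {v : OctL E1 a1 b1 c1}
    (hvt : tQ O h (u (oO O v)) = -u (oO O v)) {y : AT ρ1 σ1 α1 a1 b1 c1 q1} {t : E1}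
    (ht : t ≠ 0) (hyt : y.1 (tri ρ1 v (Jm ρ1 σ1 α1 q1 v)) = t • ep α1) :
    ∃ (b2 c2 : kˣ) (j1 l1 : Oct a1 b1 c1)
      (h1 : Trip a1 b2 c2 gi j1 l1), y * φ (tAT ρ σ α q h) * y⁻¹ = tAT ρ1 σ1 α1 q1 h1 :=
  D4X.z5_y X.H1 φ (fun z zO hz x => X.eqv z zO hz x) (fun z κ => (X.kp z κ).mp) h hvt ht hyt

/-- **The singular vector of an involution close to the standard one**, for a change of the
quadratic field. -/
theorem KCX.sing_near [NumberField E] [NumberField E1] [NumberField O]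
    (X : KCX ρ σ ρL α D w0 w ρ1 σ1 α1 ρ' σ' τ' q1 u φ) (H : Hy ρ σ ρL α a b c q)
    (hns : ∀ x : E, x * x ≠ algebraMap k E D) (hw0 : w0.re = 0)
    (hw : w0 * w0 = D • (1 : Qt a b)) {Sk : Set (k →+* ℂ)} (hfin : Sk.Finite)
    (hne : Sk.Nonempty) {P : OctL E1 a1 b1 c1 → Prop}
    (hP : ∀ᶠ v in nh {w : E1 →+* ℂ | w.comp (algebraMap k E1) ∈ Sk} (ep α1 * gl), P v) :
    ∃ ε : ℝ, 0 < ε ∧ ∀ {b' c' : kˣ} {j l : Oct a b c} (h : Trip a b' c' gi j l) {w : Qt a b'},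
      w.re = 0 → w * w = D • (1 : Qt a b') →
      (∀ τ ∈ Sk, on τ (qemb gi j w - ⟨w0, 0⟩) ≤ ε) → (∀ τ ∈ Sk, on τ (l - gl) ≤ ε) →
      ∃ v : OctL E1 a1 b1 c1, P v ∧ Pt ρ1 v ∧ tQ O h (u (oO O v)) = -u (oO O v) := by
  have hk0 : CharZero k := by
    have h0 : CharZero E := inferInstance
    exact (RingHom.charZero_iff (algebraMap k E).injective).2 h0
  have hN := Sn.norm_ne H hns hw0 hw
  obtain ⟨e, he, hu⟩ := X.K.hu
  obtain ⟨s, hs, hJ⟩ := X.K.hJ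
  have h1 := D4X.sing_near (k := k) (E1 := E1) (O := O) hfin hne (fun w => exists_ext w)
    (fun w => exists_ext w) (by rw [X.ha1]; exact X.T.α12) X.T.ρα1 X.K.hρ1 X.K.hσ1 X.K.fσ X.T.σ2
    he hs hu hJ X.K.ht X.uz hw0 hN hP
  rw [X.ha1] at h1
  exact h1

end kcx

end Vale.Agent.P011.D4X
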