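import Vale.Agent.P011.D4X.H63.TOx
import Vale.Agent.P011.D4.Torus
import Vale.Agent.P011.D4X.H657.Zx
import Vale.Agent.P011.D4X.H62.KC

/-!
Block D4X: the singular vector in the eigenspace of an involution, close to the standard one.
-/

open Filter Topology

namespace Vale.Agent.P011.D4X

open Vale.Agent.P011.MPQ Vale.Agent.P011.D4 Vale.Agent.P011.D4.Oct Vale.Agent.P011.E6


section s1

variable {k O : Type} [Field k] [Field O] [Algebra k O] [NeZero (2 : O)] {a b : kˣ}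

omit [NeZero (2 : O)] in
theorem Sn.eW_eq (β : O) {w0 : Qt a b} (hw0 : w0.re = 0) : eW β w0 =
    ⟨1 / 2, 1 / (2 * β) * algebraMap k O w0.imI, 1 / (2 * β) * algebraMap k O w0.imJ,
      1 / (2 * β) * algebraMap k O w0.imK⟩ := by
  apply QuaternionAlgebra.ext
  · change 1 / 2 * 1 + 1 / (2 * β) * algebraMap k O w0.re = 1 / 2
    rw [hw0, map_zero]
    ring
  · change 1 / 2 * 0 + 1 / (2 * β) * algebraMap k O w0.imI = _
    ring
  · change 1 / 2 * 0 + 1 / (2 * β) * algebraMap k O w0.imJ = _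
    ring
  · change 1 / 2 * 0 + 1 / (2 * β) * algebraMap k O w0.imK = _
    ring

/-- The right ideal of the idempotent is generated over the field generated by `i`. -/
theorem Sn.solve {w0 : Qt a b} (hw0 : w0.re = 0)
    (hN : w0.imJ ^ 2 - (a : k) * w0.imK ^ 2 ≠ 0) {β : O} (hβ : β ≠ 0)
    {Z : Qt (up O a) (up O b)} (hZ : eW β w0 * Z = Z) :
    ∃ x1 x2 : O, Z = eW β w0 * ⟨x1, x2, 0, 0⟩ := by
  have h2 : (2 : O) ≠ 0 := NeZero.ne 2
  have hN' : algebraMap k O w0.imJ ^ 2 - algebraMap k O a * algebraMap k O w0.imK ^ 2 ≠ 0 := by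
    rw [← map_pow, ← map_pow, ← map_mul, ← map_sub]
    exact (map_ne_zero _).2 hN
  have ea : ((up O a : Oˣ) : O) = algebraMap k O a := rfl
  rw [Sn.eW_eq β hw0] at hZ ⊢
  have hJ := congrArg QuaternionAlgebra.imJ hZ
  have hK := congrArg QuaternionAlgebra.imK hZ
  simp only [QuaternionAlgebra.imJ_mul, QuaternionAlgebra.imK_mul, ea, zero_mul,
    add_zero] at hJ hK
  obtain ⟨z0, zI, zJ, zK⟩ := Z
  generalize algebraMap k O w0.imI = p at hJ hK ⊢
  generalize algebraMap k O w0.imJ = r at hJ hK hN' ⊢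
  generalize algebraMap k O w0.imK = s at hJ hK hN' ⊢
  simp only at hJ hK
  generalize hA : algebraMap k O (a : k) = A at *
  generalize hB : algebraMap k O (b : k) = B at *
  have hJ' : r * z0 - A * s * zI = β * zJ - A * p * zK := by
    field_simp at hJ
    linear_combination hJ
  have hK' : s * z0 - r * zI = β * zK - p * zJ := by
    field_simp at hK
    linear_combination hK
  obtain ⟨N, hNd⟩ : ∃ N, N = r ^ 2 - A * s ^ 2 := ⟨_, rfl⟩
  rw [← hNd] at hN'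
  refine ⟨2 * β * (zJ * r - A * zK * s) / N, 2 * β * (zJ * s - zK * r) / N, ?_⟩
  apply QuaternionAlgebra.ext
  · simp only [QuaternionAlgebra.re_mul, ea, zero_mul, mul_zero, add_zero, sub_zero]
    field_simp
    linear_combination r * hJ' - A * s * hK' + z0 * hNd
  · simp only [QuaternionAlgebra.imI_mul, mul_zero, add_zero, sub_zero]
    field_simp
    linear_combination s * hJ' - r * hK' + zI * hNd
  · simp only [QuaternionAlgebra.imJ_mul, ea, mul_zero, add_zero, zero_add]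
    field_simp
    linear_combination zJ * hNd
  · simp only [QuaternionAlgebra.imK_mul, mul_zero, add_zero]
    field_simp
    linear_combination zK * hNd

end s1

section s2

variable {k O : Type} [Field k] [Field O] [Algebra k O] [NeZero (2 : O)] {a b c b' c' : kˣ}
  {j l : Oct a b c}

omit [NeZero (2 : O)] in
theorem Sn.mul3 (A B : Qt (up O a) (up O b)) :
    (⟨A, 0⟩ : OctL O a b c) * ⟨B, 0⟩ * ⟨0, 1⟩ = ⟨0, A * B⟩ := by
  have h1 : (⟨A, 0⟩ : OctL O a b c) * ⟨B, 0⟩ = ⟨A * B, 0⟩ := by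
    ext1
    · change A * B + (up O c : O) • (star 0 * 0) = A * B
      rw [mul_zero, smul_zero, add_zero]
    · change 0 * A + 0 * star B = 0
      rw [zero_mul, zero_mul, add_zero]
  rw [h1]
  ext1
  · change A * B * 0 + (up O c : O) • (star 1 * 0) = 0
    rw [mul_zero, mul_zero, smul_zero, add_zero]
  · change 1 * (A * B) + 0 * star 0 = A * B
    rw [one_mul, zero_mul, add_zero]

/-- The vector attached to a pure element of `C` and an element of `C`. -/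
def Sn.vec (β x1 x2 : O) (W l : Oct a b c) : OctL O a b c :=
  ((1 / 2 : O) • (1 : OctL O a b c) + (1 / (2 * β)) • oup O W) * ⟨⟨x1, x2, 0, 0⟩, 0⟩ * oup O l

omit [NeZero (2 : O)] in
theorem Sn.vec_base (β x1 x2 : O) (w0 : Qt a b) :
    Sn.vec β x1 x2 (⟨w0, 0⟩ : Oct a b c) gl = ⟨0, eW β w0 * ⟨x1, x2, 0, 0⟩⟩ := by
  have e1 : ((1 / 2 : O) • (1 : OctL O a b c) + (1 / (2 * β)) • oup O (⟨w0, 0⟩ : Oct a b c)) =
      ⟨eW β w0, 0⟩ := by
    ext1
    · rfl
    · change (1 / 2 : O) • (0 : Qt (up O a) (up O b)) + (1 / (2 * β)) • qup O 0 = 0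
      rw [qup_zero, smul_zero, smul_zero, add_zero]
  have e2 : oup O (gl : Oct a b c) = ⟨0, 1⟩ := by
    ext1
    · exact qup_zero
    · exact qup_one
  rw [Sn.vec, e1, e2, Sn.mul3]

theorem Sn.vec_trip (β x1 x2 : O) (h : Trip a b' c' gi j l) (w : Qt a b') :
    Sn.vec β x1 x2 (qemb gi j w) l = tripO O h ⟨0, eW β w * ⟨x1, x2, 0, 0⟩⟩ := by
  have e1 : (⟨0, eW β w * ⟨x1, x2, 0, 0⟩⟩ : OctL O a b' c') =
      ⟨eW β w, 0⟩ * ⟨⟨x1, x2, 0, 0⟩, 0⟩ * oup O gl := by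
    have e2 : oup O (gl : Oct a b' c') = ⟨0, 1⟩ := by
      ext1
      · exact qup_zero
      · exact qup_one
    rw [e2, Sn.mul3]
  have e3 : (⟨eW β w, 0⟩ : OctL O a b' c') = (1 / 2 : O) • (1 : OctL O a b' c') +
      (1 / (2 * β)) • oup O (⟨w, 0⟩ : Oct a b' c') := by
    ext1
    · rfl
    · change 0 = (1 / 2 : O) • (0 : Qt (up O a) (up O b')) + (1 / (2 * β)) • qup O 0
      rw [qup_zero, smul_zero, smul_zero, add_zero]
  have e4 : emb gi j l (⟨w, 0⟩ : Oct a b' c') = qemb gi j w := by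
    unfold emb
    have h0 : qemb (gi : Oct a b c) j (0 : Qt a b') = 0 := by
      unfold qemb
      simp
    change qemb gi j w + qemb gi j 0 * l = _
    rw [h0, zero_mul, add_zero]
  have e5 : emb gi j l (gl : Oct a b' c') = l := by
    unfold emb
    have h0 : qemb (gi : Oct a b c) j (0 : Qt a b') = 0 := by
      unfold qemb
      simp
    have h1 : qemb (gi : Oct a b c) j (1 : Qt a b') = 1 := by
      unfold qemb
      simp
    change qemb gi j 0 + qemb gi j 1 * l = _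
    rw [h0, h1, zero_add, one_mul]
  have e6 : tripO O h (1 : OctL O a b' c') = 1 := by
    rw [tripO_apply]
    unfold emb
    have h0 : qemb (oup O (gi : Oct a b c)) (oup O j) (0 : Qt (up O a) (up O b')) = 0 := by
      unfold qemb
      simp
    have h1 : qemb (oup O (gi : Oct a b c)) (oup O j) (1 : Qt (up O a) (up O b')) = 1 := by
      unfold qemb
      simp
    change qemb _ _ 1 + qemb _ _ 0 * _ = _
    rw [h0, h1, zero_mul, add_zero]
  rw [e1, tripO_mul, tripO_mul, tripO_oup, e5, e3, map_add, map_smul, map_smul, tripO_oup, e4, e6,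
    tripO_apply h ⟨⟨x1, x2, 0, 0⟩, 0⟩, H24.emb_torus]
  rfl

variable {X : Type} {Sk : Set (k →+* ℂ)} {SO : Set (O →+* ℂ)} {F : Filter X}

omit [NeZero (2 : O)] in
theorem Sn.vec_lim (hup : ∀ W ∈ SO, W.comp (algebraMap k O) ∈ Sk) (β x1 x2 : O)
    {f g : X → Oct a b c} {W l : Oct a b c} (hf : TO Sk F f W) (hg : TO Sk F g l) :
    TO SO F (fun p => Sn.vec β x1 x2 (f p) (g p)) (Sn.vec β x1 x2 W l) :=
  (((TO.const _ _ _).add (TO.smul (TE.const _ _ _) (hf.oup hup))).mul (TO.const _ _ _)).mul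
    (hg.oup hup)

end s2

section s3

variable {k E1 O X : Type} [Field k] [Field E1] [Field O] [Algebra k E1] [Algebra k O]
  [Algebra E1 O] [IsScalarTower k E1 O] [NeZero (2 : E1)] [NeZero (2 : O)]
  {ρ1 : E1 ≃ₐ[k] E1} {ρ' σ' : O ≃ₐ[k] O} {γ : O} {a b c a1 b1 c1 : kˣ}

omit [NeZero (2 : E1)] in
/-- The image of the standard vector. -/
theorem Sn.exists_base {α1 : E1} (hα1 : α1 * α1 = algebraMap k E1 a1)
    {u : OctL O a1 b1 c1 ≃ₗ[O] OctL O a b c} {w0 : Qt a b} {p : Qt (up O a) (up O b)}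
    (hut : ∀ x, u (t0 O a1 b1 c1 x) = t0 O a b c (u x))
    (huz : ∀ (r r' r0 r0' g : O) (x : OctL O a1 b1 c1),
      u (zFun ρ' (r • 1 + r' • ⟨0, 1, 0, 0⟩) (r0 • 1 + r0' • ⟨0, 1, 0, 0⟩) g x) =
        zFun ρ' (r • 1 + r' • p) (r0 • 1 + r0' • qup O w0) g (u x))
    (hw0 : w0.re = 0) (hN : w0.imJ ^ 2 - (a : k) * w0.imK ^ 2 ≠ 0) :
    ∃ x1 x2 : O, u (oO O (ep α1 * gl)) =
      Sn.vec (algebraMap E1 O α1) x1 x2 (⟨w0, 0⟩ : Oct a b c) gl := by
  have h2 : (2 : O) ≠ 0 := NeZero.ne 2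
  have hβ2 : algebraMap E1 O α1 * algebraMap E1 O α1 = ((up O a1 : Oˣ) : O) := by
    rw [← map_mul, hα1, ← IsScalarTower.algebraMap_apply]
    rfl
  obtain ⟨β, hβ⟩ : ∃ β, β = algebraMap E1 O α1 := ⟨_, rfl⟩
  rw [← hβ] at hβ2 ⊢
  have hβ0 : β ≠ 0 := by
    rintro rfl
    rw [mul_zero] at hβ2
    exact (up O a1).ne_zero hβ2.symm
  obtain ⟨e, he⟩ : ∃ e : Qt (up O a1) (up O b1), e = ⟨1 / 2, 1 / (2 * β), 0, 0⟩ := ⟨_, rfl⟩
  have e1 : oO O (ep α1 * gl : OctL E1 a1 b1 c1) = ⟨0, e⟩ := by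
    rw [he, hβ]
    have h3 : (ep α1 * gl : OctL E1 a1 b1 c1) = ⟨0, ⟨1 / 2, 1 / (2 * α1), 0, 0⟩⟩ := by
      ext1
      · change _ * 0 + (up E1 c1 : E1) • (star 1 * 0) = 0
        rw [mul_zero, mul_zero, smul_zero, add_zero]
      · change 1 * _ + 0 * star _ = _
        rw [one_mul, zero_mul, add_zero]
        rfl
    rw [h3]
    ext1
    · apply QuaternionAlgebra.ext <;> exact map_zero _
    · apply QuaternionAlgebra.ext
      · change algebraMap E1 O (1 / 2) = 1 / 2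
        rw [map_div₀, map_one, map_ofNat]
      · change algebraMap E1 O (1 / (2 * α1)) = _
        rw [map_div₀, map_one, map_mul, map_ofNat]
      · exact map_zero _
      · exact map_zero _
  have e2 : e * e = e := by
    rw [he]
    apply QuaternionAlgebra.ext
    · simp only [QuaternionAlgebra.re_mul, ← hβ2]
      field_simp
      ring
    · simp only [QuaternionAlgebra.imI_mul]
      field_simp
      ring
    · simp only [QuaternionAlgebra.imJ_mul]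
      ring
    · simp only [QuaternionAlgebra.imK_mul]
      ring
  have e3 : ((1 / 2 : O) • 1 + (1 / (2 * β)) • ⟨0, 1, 0, 0⟩ : Qt (up O a1) (up O b1)) = e := by
    rw [he]
    apply QuaternionAlgebra.ext
    · change 1 / 2 * 1 + 1 / (2 * β) * 0 = 1 / 2
      ring
    · change 1 / 2 * 0 + 1 / (2 * β) * 1 = 1 / (2 * β)
      ring
    · change 1 / 2 * 0 + 1 / (2 * β) * 0 = (0 : O)
      ring
    · change 1 / 2 * 0 + 1 / (2 * β) * 0 = (0 : O)
      ring
  have e4 : ((1 : O) • 1 + (0 : O) • ⟨0, 1, 0, 0⟩ : Qt (up O a1) (up O b1)) = 1 := by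
    rw [one_smul, zero_smul, add_zero]
  have e5 : ((1 : O) • 1 + (0 : O) • p : Qt (up O a) (up O b)) = 1 := by
    rw [one_smul, zero_smul, add_zero]
  have h3 := huz 1 0 (1 / 2) (1 / (2 * β)) 1 ⟨0, e⟩
  rw [e3, e4, e5] at h3
  have h4 : zFun ρ' 1 e 1 (⟨0, e⟩ : OctL O a1 b1 c1) = ⟨0, e⟩ := by
    ext1
    · change 1 * 0 * _ = 0
      rw [mul_zero, zero_mul]
    · change (1 : O) • (e * e * star (qmap ρ' 1)) = e
      rw [qmap_one, star_one, mul_one, one_smul, e2]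
  rw [h4] at h3
  obtain ⟨Y, hY⟩ : ∃ Y, Y = u ⟨0, e⟩ := ⟨_, rfl⟩
  rw [← hY] at h3
  have h5 : Y.fst = 0 := by
    have h6 := hut ⟨0, e⟩
    have h7 : t0 O a1 b1 c1 ⟨0, e⟩ = -(⟨0, e⟩ : OctL O a1 b1 c1) := by
      ext1
      · exact neg_zero.symm
      · rfl
    rw [h7, map_neg, ← hY] at h6
    have h8 : -Y.fst = Y.fst := congrArg Oct.fst h6
    have h9 : (2 : O) • Y.fst = 0 := by
      rw [two_smul]
      nth_rewrite 1 [← h8]
      exact neg_add_cancel _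
    exact (smul_eq_zero.1 h9).resolve_left h2
  have h6 : eW β w0 * Y.snd = Y.snd := by
    have h7 := congrArg Oct.snd h3
    change Y.snd = (1 : O) • (eW β w0 * Y.snd * star (qmap ρ' 1)) at h7
    rw [qmap_one, star_one, mul_one, one_smul] at h7
    exact h7.symm
  obtain ⟨x1, x2, h7⟩ := Sn.solve hw0 hN hβ0 h6
  refine ⟨x1, x2, ?_⟩
  rw [e1, ← hY, Sn.vec_base, ← h7]
  ext1
  · exact h5
  · rfl

/-- **The singular vector of an involution close to the standard one**, as a limit. -/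
theorem sing_lim {Sk : Set (k →+* ℂ)} (hne : Sk.Nonempty)
    (hext : ∀ w : E1 →+* ℂ, ∃ W : O →+* ℂ, W.comp (algebraMap E1 O) = w)
    (hextk : ∀ w : k →+* ℂ, ∃ W : E1 →+* ℂ, W.comp (algebraMap k E1) = w)
    {α1 : E1} (hα1 : α1 * α1 = algebraMap k E1 a1) (hρα : ρ1 α1 = α1)
    (hρ1 : ∀ t, ρ' (algebraMap E1 O t) = algebraMap E1 O (ρ1 t))
    (hσ1 : ∀ t, σ' (algebraMap E1 O t) = algebraMap E1 O t)
    (hfix : ∀ t, σ' t = t → ∃ s : E1, algebraMap E1 O s = t) (σ2 : ∀ t, σ' (σ' t) = t)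
    {r r' : O} {u : OctL O a1 b1 c1 ≃ₗ[O] OctL O a b c} {e s : O} (he : e ≠ 0) (hs : s ≠ 0)
    (hu1 : ∀ x y, tri ρ' (u x) (u y) = e • u (tri ρ' x y))
    (hu2 : ∀ x, Jq σ' γ r r' (u x) = s • u (omap σ' x))
    (hut : ∀ x, u (t0 O a1 b1 c1 x) = t0 O a b c (u x)) {w0 : Qt a b}
    {p : Qt (up O a) (up O b)}
    (huz : ∀ (r r' r0 r0' g : O) (x : OctL O a1 b1 c1),
      u (zFun ρ' (r • 1 + r' • ⟨0, 1, 0, 0⟩) (r0 • 1 + r0' • ⟨0, 1, 0, 0⟩) g x) =
        zFun ρ' (r • 1 + r' • p) (r0 • 1 + r0' • qup O w0) g (u x))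
    (hw0 : w0.re = 0) (hN : w0.imJ ^ 2 - (a : k) * w0.imK ^ 2 ≠ 0)
    {F : Filter X} {f g : X → Oct a b c} (hf : TO Sk F f ⟨w0, 0⟩) (hg : TO Sk F g gl) :
    ∃ v : X → OctL E1 a1 b1 c1,
      TO {w : E1 →+* ℂ | w.comp (algebraMap k E1) ∈ Sk} F v (ep α1 * gl) ∧
      (∀ᶠ x in F, v x ≠ 0) ∧ ∀ x, v x ≠ 0 → ∀ {b' c' : kˣ} {j l : Oct a b c}
        (h : Trip a b' c' gi j l) {w : Qt a b'}, f x = qemb gi j w → g x = l → w.re = 0 →
        w * w = (a1 : k) • (1 : Qt a b') → Pt ρ1 (v x) ∧ tQ O h (u (oO O (v x))) =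
          -u (oO O (v x)) := by
  obtain ⟨x1, x2, hb⟩ := Sn.exists_base hα1 hut huz hw0 hN
  obtain ⟨β, hβ⟩ : ∃ β, β = algebraMap E1 O α1 := ⟨_, rfl⟩
  rw [← hβ] at hb
  have hββ : β * β = algebraMap k O (a1 : k) := by
    rw [hβ, ← map_mul, hα1, ← IsScalarTower.algebraMap_apply]
  have hβ0 : β ≠ 0 := by
    rintro rfl
    rw [mul_zero] at hββ
    exact (map_ne_zero (algebraMap k O)).2 a1.ne_zero hββ.symm
  have hσβ : σ' β = β := by rw [hβ, hσ1]
  have hρβ : ρ' β = β := by rw [hβ, hρ1, hρα]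
  obtain ⟨SO, hSO⟩ : ∃ SO : Set (O →+* ℂ), SO = {W | W.comp (algebraMap k O) ∈ Sk} := ⟨_, rfl⟩
  have hup : ∀ W ∈ SO, W.comp (algebraMap k O) ∈ Sk := fun W hW => by
    rw [hSO] at hW
    exact hW
  have hSσ : ∀ W ∈ SO, W.comp (σ' : O →+* O) ∈ SO := fun W hW => by
    rw [hSO] at hW ⊢
    have h1 : (W.comp (σ' : O →+* O)).comp (algebraMap k O) = W.comp (algebraMap k O) := by
      apply RingHom.ext
      intro t
      change W (σ' (algebraMap k O t)) = W (algebraMap k O t)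
      rw [σ'.commutes]
    change (W.comp (σ' : O →+* O)).comp (algebraMap k O) ∈ Sk
    rw [h1]
    exact hW
  have hdn : ∀ w ∈ {w : E1 →+* ℂ | w.comp (algebraMap k E1) ∈ Sk}, ∃ W ∈ SO,
      W.comp (algebraMap E1 O) = w := by
    intro w hw
    obtain ⟨W, hW⟩ := hext w
    refine ⟨W, ?_, hW⟩
    rw [hSO]
    change W.comp (algebraMap k O) ∈ Sk
    have h1 : W.comp (algebraMap k O) = w.comp (algebraMap k E1) := by
      rw [← hW]
      apply RingHom.ext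
      intro t
      change W (algebraMap k O t) = W (algebraMap E1 O (algebraMap k E1 t))
      rw [← IsScalarTower.algebraMap_apply]
    rw [h1]
    exact hw
  have hne1 : {w : E1 →+* ℂ | w.comp (algebraMap k E1) ∈ Sk}.Nonempty := by
    obtain ⟨w, hw⟩ := hne
    obtain ⟨W, hW⟩ := hextk w
    exact ⟨W, by
      change W.comp (algebraMap k E1) ∈ Sk
      rw [hW]
      exact hw⟩
  have oo : ∀ x : OctL O a1 b1 c1, omap σ' (omap σ' x) = x := fun x => by
    ext1 <;> ext <;> simp [omap, σ2]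
  -- the vectors
  obtain ⟨y, hy⟩ : ∃ y : X → OctL O a b c, y = fun x => Sn.vec β x1 x2 (f x) (g x) := ⟨_, rfl⟩
  obtain ⟨V, hV⟩ : ∃ V : X → OctL O a1 b1 c1, V = fun x => (1 / 2 : O) •
    (u.symm (y x) + omap σ' (u.symm (y x))) := ⟨_, rfl⟩
  have hVσ : ∀ x, omap σ' (V x) = V x := by
    intro x
    rw [hV]
    change omap σ' ((1 / 2 : O) • _) = _
    rw [omap_smul, map_div₀, map_one, map_ofNat, omap_add, oo, add_comm]
  choose v hv using fun x => exists_oO hfix (hVσ x)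
  have hylim : TO SO F y (u (oO O (ep α1 * gl))) := by
    rw [hb, hy]
    exact Sn.vec_lim hup β x1 x2 hf hg
  have hulim : TO SO F (fun x => u.symm (y x)) (oO O (ep α1 * gl : OctL E1 a1 b1 c1)) := by
    have h1 := hylim.lin (u.symm : OctL O a b c →ₗ[O] OctL O a1 b1 c1)
    have h2 : (u.symm : OctL O a b c →ₗ[O] OctL O a1 b1 c1) (u (oO O (ep α1 * gl))) =
        oO O (ep α1 * gl) := u.symm_apply_apply _
    rw [h2] at h1
    exact h1
  have hVlim : TO SO F (fun x => oO O (v x)) (oO O (ep α1 * gl : OctL E1 a1 b1 c1)) := by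
    have h1 : (fun x => oO O (v x)) = fun x => (1 / 2 : O) •
        (u.symm (y x) + omap σ' (u.symm (y x))) := by
      funext x
      rw [hv, hV]
    have h2 : oO O (ep α1 * gl : OctL E1 a1 b1 c1) = (1 / 2 : O) •
        (oO O (ep α1 * gl) + omap σ' (oO O (ep α1 * gl))) := by
      have h3 : omap σ' (oO O (ep α1 * gl : OctL E1 a1 b1 c1)) = oO O (ep α1 * gl) := by
        have h4 := omap_oO (ρ := (AlgEquiv.refl : E1 ≃ₐ[k] E1)) (ρ' := σ') hσ1
          (ep α1 * gl : OctL E1 a1 b1 c1)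
        rw [h4]
        rfl
      rw [h3, ← two_smul O, smul_smul, one_div_mul_cancel (NeZero.ne (2 : O)), one_smul]
    rw [h1, h2]
    exact TO.smul (TE.const _ _ _) (hulim.add (hulim.omap hSσ))
  have hvlim := TO.down hdn hVlim
  refine ⟨v, hvlim, ?_, fun x hx0 => ?_⟩
  · have h1 : TE {w : E1 →+* ℂ | w.comp (algebraMap k E1) ∈ Sk} F (fun x => (v x).snd.re)
      (ep α1 * gl : OctL E1 a1 b1 c1).snd.re := hvlim.2.1
    have h2 : (ep α1 * gl : OctL E1 a1 b1 c1).snd.re ≠ 0 := by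
      have h3 : (ep α1 * gl : OctL E1 a1 b1 c1).snd = (ep α1 : OctL E1 a1 b1 c1).fst := by
        change 1 * _ + 0 * star _ = _
        rw [one_mul, zero_mul, add_zero]
      rw [h3]
      exact one_div_ne_zero (NeZero.ne (2 : E1))
    filter_upwards [h1.eventually_ne hne1 h2] with x hx h3
    exact hx (by rw [h3]; rfl)
  · intro b' c' j l h w hfx hgx hw0' hww
    have hyS : InS β h w (y x) := by
      refine ⟨⟨x1, x2, 0, 0⟩, ?_⟩
      rw [hy, ← Sn.vec_trip]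
      change Sn.vec β x1 x2 (f x) (g x) = _
      rw [hfx, hgx]
    have hss : ∀ z, InS β h w (u z) → InS β h w (u (omap σ' z)) := by
      intro z hz
      have h1 := (hz.Jq_mem (σ' := σ') (α := γ) hσβ r r').smul s⁻¹
      rwa [hu2, smul_smul, inv_mul_cancel₀ hs, one_smul] at h1
    have hxS : InS β h w (u (oO O (v x))) := by
      rw [hv, hV]
      change InS β h w (u ((1 / 2 : O) • _))
      rw [map_smul, map_add]
      have h1 : InS β h w (u (u.symm (y x))) := by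
        rw [u.apply_symm_apply]
        exact hyS
      exact (h1.add (hss _ h1)).smul _
    refine ⟨⟨hx0, ?_⟩, hxS.tQ_eq⟩
    apply oO_inj (O := O)
    rw [oO_zero, ← tri_oO hρ1]
    apply u.injective
    have h1 := hu1 (oO O (v x)) (oO O (v x))
    rw [hxS.tri_self hρβ hw0' hww hββ hβ0] at h1
    rw [map_zero]
    exact (smul_eq_zero.mp h1.symm).resolve_left he

/-- **The singular vector of an involution close to the standard one.** -/
theorem sing_near {Sk : Set (k →+* ℂ)} (hfin : Sk.Finite) (hne : Sk.Nonempty)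
    (hext : ∀ w : E1 →+* ℂ, ∃ W : O →+* ℂ, W.comp (algebraMap E1 O) = w)
    (hextk : ∀ w : k →+* ℂ, ∃ W : E1 →+* ℂ, W.comp (algebraMap k E1) = w)
    {α1 : E1} (hα1 : α1 * α1 = algebraMap k E1 a1) (hρα : ρ1 α1 = α1)
    (hρ1 : ∀ t, ρ' (algebraMap E1 O t) = algebraMap E1 O (ρ1 t))
    (hσ1 : ∀ t, σ' (algebraMap E1 O t) = algebraMap E1 O t)
    (hfix : ∀ t, σ' t = t → ∃ s : E1, algebraMap E1 O s = t) (σ2 : ∀ t, σ' (σ' t) = t)
    {r r' : O} {u : OctL O a1 b1 c1 ≃ₗ[O] OctL O a b c} {e s : O} (he : e ≠ 0) (hs : s ≠ 0)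
    (hu1 : ∀ x y, tri ρ' (u x) (u y) = e • u (tri ρ' x y))
    (hu2 : ∀ x, Jq σ' γ r r' (u x) = s • u (omap σ' x))
    (hut : ∀ x, u (t0 O a1 b1 c1 x) = t0 O a b c (u x)) {w0 : Qt a b}
    {p : Qt (up O a) (up O b)}
    (huz : ∀ (r r' r0 r0' g : O) (x : OctL O a1 b1 c1),
      u (zFun ρ' (r • 1 + r' • ⟨0, 1, 0, 0⟩) (r0 • 1 + r0' • ⟨0, 1, 0, 0⟩) g x) =
        zFun ρ' (r • 1 + r' • p) (r0 • 1 + r0' • qup O w0) g (u x))
    (hw0 : w0.re = 0) (hN : w0.imJ ^ 2 - (a : k) * w0.imK ^ 2 ≠ 0)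
    {P : OctL E1 a1 b1 c1 → Prop}
    (hP : ∀ᶠ v in nh {w : E1 →+* ℂ | w.comp (algebraMap k E1) ∈ Sk} (ep α1 * gl), P v) :
    ∃ ε : ℝ, 0 < ε ∧ ∀ {b' c' : kˣ} {j l : Oct a b c} (h : Trip a b' c' gi j l) {w : Qt a b'},
      w.re = 0 → w * w = (a1 : k) • (1 : Qt a b') →
      (∀ τ ∈ Sk, on τ (qemb gi j w - ⟨w0, 0⟩) ≤ ε) → (∀ τ ∈ Sk, on τ (l - gl) ≤ ε) →
      ∃ v : OctL E1 a1 b1 c1, P v ∧ Pt ρ1 v ∧ tQ O h (u (oO O v)) = -u (oO O v) := by
  have hf : TO Sk (nh Sk (⟨w0, 0⟩ : Oct a b c) ×ˢ nh Sk (gl : Oct a b c)) Prod.fst ⟨w0, 0⟩ :=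
    TO.comp tendsto_fst (TO_id Sk (⟨w0, 0⟩ : Oct a b c))
  have hg : TO Sk (nh Sk (⟨w0, 0⟩ : Oct a b c) ×ˢ nh Sk (gl : Oct a b c)) Prod.snd gl :=
    TO.comp tendsto_snd (TO_id Sk (gl : Oct a b c))
  obtain ⟨v, hv, hv0, hvp⟩ := sing_lim hne hext hextk hα1 hρα hρ1 hσ1 hfix σ2 he hs hu1 hu2 hut
    huz hw0 hN hf hg
  have h1 := (hv.tendsto.eventually hP).and hv0
  obtain ⟨pa, ha, pb, hb, hab⟩ := eventually_prod_iff.1 h1
  obtain ⟨ε1, h3, h4⟩ := exists_eps hfin ha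
  obtain ⟨ε2, h5, h6⟩ := exists_eps hfin hb
  refine ⟨min ε1 ε2, lt_min h3 h5, fun {b' c' j l} h {w} hw1 hw2 hw3 hw4 => ?_⟩
  have h7 := hab (h4 (qemb gi j w) fun τ hτ => (hw3 τ hτ).trans (min_le_left _ _))
    (h6 l fun τ hτ => (hw4 τ hτ).trans (min_le_right _ _))
  exact ⟨_, h7.1, hvp (qemb gi j w, l) h7.2 h rfl rfl hw1 hw2⟩

end s3

end Vale.Agent.P011.D4X
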