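import Vale.Agent.P011.D4X.H408.Top
import Vale.Agent.P011.D4X.H69.Z5

/-!
Block D4X: limits and linear maps, limits and changes of the field.
-/

open Filter Topology

namespace Vale.Agent.P011.D4X

open Vale.Agent.P011.MPQ Vale.Agent.P011.D4 Vale.Agent.P011.D4.Oct

section lin

variable {O X : Type} [Field O] {S : Set (O →+* ℂ)} {F : Filter X} {a b c a' b' c' : Oˣ}

/-- The eight basis vectors. -/
def bas (a b c : Oˣ) : Fin 8 → Oct a b c :=
  ![⟨⟨1, 0, 0, 0⟩, 0⟩, ⟨⟨0, 1, 0, 0⟩, 0⟩, ⟨⟨0, 0, 1, 0⟩, 0⟩, ⟨⟨0, 0, 0, 1⟩, 0⟩,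
    ⟨0, ⟨1, 0, 0, 0⟩⟩, ⟨0, ⟨0, 1, 0, 0⟩⟩, ⟨0, ⟨0, 0, 1, 0⟩⟩, ⟨0, ⟨0, 0, 0, 1⟩⟩]

theorem bas_sum (x : Oct a b c) : x = ∑ i, co8 x i • bas a b c i := by
  rw [Fin.sum_univ_eight]
  apply ext8 <;> simp [co8, bas]

theorem TO.lin (u : Oct a b c →ₗ[O] Oct a' b' c') {f : X → Oct a b c} {x : Oct a b c}
    (hf : TO S F f x) : TO S F (fun v => u (f v)) (u x) := by
  have key : ∀ y : Oct a b c, u y = co8 y 0 • u (bas a b c 0) + co8 y 1 • u (bas a b c 1) +
      co8 y 2 • u (bas a b c 2) + co8 y 3 • u (bas a b c 3) + co8 y 4 • u (bas a b c 4) +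
      co8 y 5 • u (bas a b c 5) + co8 y 6 • u (bas a b c 6) + co8 y 7 • u (bas a b c 7) := by
    intro y
    conv_lhs => rw [bas_sum y, Fin.sum_univ_eight]
    simp only [map_add, map_smul]
  have e1 : (fun v => u (f v)) = fun v => co8 (f v) 0 • u (bas a b c 0) +
      co8 (f v) 1 • u (bas a b c 1) + co8 (f v) 2 • u (bas a b c 2) +
      co8 (f v) 3 • u (bas a b c 3) + co8 (f v) 4 • u (bas a b c 4) +
      co8 (f v) 5 • u (bas a b c 5) + co8 (f v) 6 • u (bas a b c 6) +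
      co8 (f v) 7 • u (bas a b c 7) := funext fun v => key _
  rw [e1, key x]
  obtain ⟨⟨h0, h1, h2, h3⟩, h4, h5, h6, h7⟩ := hf
  exact (((((((TO.smul h0 (TO.const _ _ _)).add (TO.smul h1 (TO.const _ _ _))).add
    (TO.smul h2 (TO.const _ _ _))).add (TO.smul h3 (TO.const _ _ _))).add
    (TO.smul h4 (TO.const _ _ _))).add (TO.smul h5 (TO.const _ _ _))).add
    (TO.smul h6 (TO.const _ _ _))).add (TO.smul h7 (TO.const _ _ _))

end lin

section up

variable {k E O X : Type} [Field k] [Field E] [Field O] [Algebra k E] [Algebra k O] [Algebra E O]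
  {Sk : Set (k →+* ℂ)} {SE : Set (E →+* ℂ)} {SO : Set (O →+* ℂ)} {F : Filter X}

theorem TE.up (h : ∀ W ∈ SO, W.comp (algebraMap E O) ∈ SE) {f : X → E} {x : E}
    (hf : TE SE F f x) : TE SO F (fun v => algebraMap E O (f v)) (algebraMap E O x) :=
  fun W hW => hf _ (h W hW)

theorem TE.down (h : ∀ w ∈ SE, ∃ W ∈ SO, W.comp (algebraMap E O) = w) {f : X → E} {x : E}
    (hf : TE SO F (fun v => algebraMap E O (f v)) (algebraMap E O x)) : TE SE F f x := by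
  intro w hw
  obtain ⟨W, hW, rfl⟩ := h w hw
  exact hf W hW

variable {a b c : kˣ}

theorem TO.oup (h : ∀ W ∈ SO, W.comp (algebraMap k O) ∈ Sk) {f : X → Oct a b c} {x : Oct a b c}
    (hf : TO Sk F f x) : TO SO F (fun v => oup O (f v)) (oup O x) := by
  obtain ⟨⟨h0, h1, h2, h3⟩, h4, h5, h6, h7⟩ := hf
  exact ⟨⟨h0.up h, h1.up h, h2.up h, h3.up h⟩, h4.up h, h5.up h, h6.up h, h7.up h⟩

theorem TO.down (h : ∀ w ∈ SE, ∃ W ∈ SO, W.comp (algebraMap E O) = w) {f : X → OctL E a b c}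
    {x : OctL E a b c} (hf : TO SO F (fun v => oO O (f v)) (oO O x)) : TO SE F f x := by
  obtain ⟨⟨h0, h1, h2, h3⟩, h4, h5, h6, h7⟩ := hf
  exact ⟨⟨TE.down h h0, TE.down h h1, TE.down h h2, TE.down h h3⟩, TE.down h h4, TE.down h h5,
    TE.down h h6, TE.down h h7⟩

end up

section nhs

variable {E X : Type} [Field E] {S : Set (E →+* ℂ)} {F : Filter X} {a b c : Eˣ}

/-- Limits as tendsto statements. -/
theorem TO.tendsto {f : X → Oct a b c} {x : Oct a b c} (hf : TO S F f x) :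
    Tendsto f F (nh S x) := by
  obtain ⟨⟨h0, h1, h2, h3⟩, h4, h5, h6, h7⟩ := hf
  rw [nh, tendsto_comap_iff, tendsto_pi_nhds]
  rintro ⟨⟨w, hw⟩, i⟩
  fin_cases i
  · exact h0 w hw
  · exact h1 w hw
  · exact h2 w hw
  · exact h3 w hw
  · exact h4 w hw
  · exact h5 w hw
  · exact h6 w hw
  · exact h7 w hw

theorem TO.comp {Y : Type} {G : Filter Y} {g : Y → X} (hg : Tendsto g G F) {f : X → Oct a b c}
    {x : Oct a b c} (hf : TO S F f x) : TO S G (fun y => f (g y)) x := by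
  obtain ⟨⟨h0, h1, h2, h3⟩, h4, h5, h6, h7⟩ := hf
  exact ⟨⟨fun w hw => (h0 w hw).comp hg, fun w hw => (h1 w hw).comp hg,
    fun w hw => (h2 w hw).comp hg, fun w hw => (h3 w hw).comp hg⟩, fun w hw => (h4 w hw).comp hg,
    fun w hw => (h5 w hw).comp hg, fun w hw => (h6 w hw).comp hg, fun w hw => (h7 w hw).comp hg⟩

end nhs

end Vale.Agent.P011.D4X
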